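import Vale.Agent.P301.BaseDim

/-!
# P301: the base locus of a nef isotropic line bundle has dimension at least `n`

`X` is a compact connected Kähler manifold of dimension `2n` with a holomorphic symplectic form
`σ`, and `L` is a nef holomorphic line bundle with `q(c₁(L)) = 0`. The common zero set of any set of
holomorphic sections of positive powers of `L` has dimension at least `n` at each of its points. In
particular `L` is semiample as soon as its stable base locus has dimension less than `n` at each of
its points.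
-/

open scoped Manifold ContDiff

namespace Vale.Agent.Results.P301.BaseLocusDim

open Vale.Agent.P272.K (Cm Chart At IsKahler)
open Vale.Agent.P301

theorem result (n : ℕ) (hn : 1 ≤ n) (X : Type) [TopologicalSpace X] [T2Space X] [CompactSpace X]
    [PreconnectedSpace X] [ChartedSpace (Cm (2 * n)) X] [IsManifold 𝓘(ℂ, Cm (2 * n)) ω X]
    (w : Chart (2 * n) X → Cm (2 * n) → Matrix (Fin (2 * n)) (Fin (2 * n)) ℂ) (hw : IsKahler w)
    (σ : Chart (2 * n) X → Cm (2 * n) → Matrix (Fin (2 * n)) (Fin (2 * n)) ℂ)
    (hσ : IsSymplectic σ) (L : LineBundle (2 * n) X) (hnef : L.IsNef w)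
    (hL : L.IsIsotropic σ) :
    (∀ S : Set (ℕ × (L.ι → X → ℂ)), (∀ q ∈ S, 1 ≤ q.1 ∧ L.IsSection q.1 q.2) →
      ∀ p ∈ L.zeros S, DimGE (2 * n) n (L.zeros S) p) ∧
    (L.IsSemiample ↔ ∀ p ∈ L.sbs, ¬ DimGE (2 * n) n L.sbs p) := by
  exact ⟨fun S hS p hp => dimGE_zeros hn rfl hσ hw hnef hL hS hp,
    semiample_iff hn rfl hσ hw hnef hL⟩

end Vale.Agent.Results.P301.BaseLocusDim
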