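import Vale.Agent.P301.PoissonAll

/-!
# P301: the quotients of sections of a nef isotropic line bundle Poisson-commute

`X` is a compact Kähler manifold of dimension `2n` with a holomorphic symplectic form `σ`, and `L`
is a nef holomorphic line bundle with `q(c₁(L)) = 0`. The differentials at a point of all quotients
`t / t₀` of holomorphic sections of the same power of `L` span a subspace of the cotangent space
which is isotropic for the Poisson structure, so of dimension at most `n`.
-/

open scoped Manifold ContDiff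

namespace Vale.Agent.Results.P301.SectionsPoisson

open Vale.Agent.P272.K (Cm Chart At IsKahler)
open Vale.Agent.P301

theorem result (n : ℕ) (X : Type) [TopologicalSpace X] [T2Space X] [CompactSpace X]
    [ChartedSpace (Cm (2 * n)) X] [IsManifold 𝓘(ℂ, Cm (2 * n)) ω X]
    (w : Chart (2 * n) X → Cm (2 * n) → Matrix (Fin (2 * n)) (Fin (2 * n)) ℂ) (_ : IsKahler w)
    (σ : Chart (2 * n) X → Cm (2 * n) → Matrix (Fin (2 * n)) (Fin (2 * n)) ℂ)
    (_ : IsSymplectic σ) (L : LineBundle (2 * n) X) (_ : L.IsNef w) (_ : L.IsIsotropic σ)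
    (e : Chart (2 * n) X) (x : X) (_ : At e x) :
    (∀ v ∈ L.quotDiffs e x, ∀ u ∈ L.quotDiffs e x,
      ∑ j, ∑ k, (σ e (e x))⁻¹ j k * v j * u k = 0) ∧
    Module.finrank ℂ (Submodule.span ℂ (L.quotDiffs e x)) ≤ n := by
  rename_i hw hσ hnef hL hx
  have h1 : ∀ v ∈ L.quotDiffs e x, ∀ u ∈ L.quotDiffs e x,
      ∑ j, ∑ k, (σ e (e x))⁻¹ j k * v j * u k = 0 := fun v hv u hu =>
    quotDiffs_isotropic hσ hw hnef hL hx hv hu
  refine ⟨h1, finrank_span_le ?_ h1⟩
  rw [Matrix.det_nonsing_inv, Ring.inverse_eq_inv']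
  exact inv_ne_zero (hσ.nondeg e x hx)

end Vale.Agent.Results.P301.SectionsPoisson
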